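import Vale.Agent.Lib.P209.Defs

/-!
# P209 module C: composition and the induction on the number of balls   (FROZEN statements)

* `isSympEmb_id`: `U = univ`.
* `isSympEmb_comp`: neighbourhood `Uψ ∩ ψ ⁻¹' Uφ` (open: `ContinuousOn.isOpen_inter_preimage`;
  contains `cball n S` since `ψ '' cball ⊆ oball n R' ⊆ cball n R' ⊆ Uφ`); `ContDiffOn.comp`,
  `Set.InjOn.comp`, `fderiv_comp` (both maps are differentiable at points of their open sets).
* `packs_of_two_ball`: induction on `k` for all `r, R`.  `k = 0` trivial.  `k + 1`: if `k = 0` use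
  `id`.  Otherwise `a = r 0`, `T = ∑_{i ≥ 1} r i > 0`, `b = (T + R - a)/2`, so `T < b`, `a + b < R`;
  take `φa, φb` from `h2 a b R`, a packing `ψ` of the `r (succ i)` in `oball n b` (induction) and use
  `Fin.cons φa (fun i => φb ∘ ψ i)`.  The images of `φb ∘ ψ i` lie in `φb '' cball n b`
  (disjoint from the image of `φa`, inside `oball n R`) and are pairwise disjoint as `φb` is
  injective on a neighbourhood of `cball n b`.
-/

namespace Vale.Agent.P209

theorem isSympEmb_id (n : ℕ) (R : ℝ) : IsSympEmb n R id := by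
  refine ⟨Set.univ, isOpen_univ, Set.subset_univ _, contDiff_id.contDiffOn,
    Function.injective_id.injOn, ?_⟩
  intro z _ u v
  simp [fderiv_id]

theorem isSympEmb_comp {n : ℕ} {S R' : ℝ} {φ ψ : Cn n → Cn n} (hφ : IsSympEmb n R' φ)
    (hψ : IsSympEmb n S ψ) (hsub : ψ '' cball n S ⊆ oball n R') : IsSympEmb n S (φ ∘ ψ) := by
  obtain ⟨Uφ, hUφo, hUφc, hφs, hφi, hφω⟩ := hφ
  obtain ⟨Uψ, hUψo, hUψc, hψs, hψi, hψω⟩ := hψ
  have hoc : oball n R' ⊆ cball n R' := fun z hz => by
    simp only [oball, cball, Set.mem_ofPred_eq] at hz ⊢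
    exact le_of_lt hz
  refine ⟨Uψ ∩ ψ ⁻¹' Uφ, hψs.continuousOn.isOpen_inter_preimage hUψo hUφo, ?_, ?_, ?_, ?_⟩
  · intro z hz
    exact ⟨hUψc hz, hUφc (hoc (hsub ⟨z, hz, rfl⟩))⟩
  · exact hφs.comp (hψs.mono Set.inter_subset_left) (fun z hz => hz.2)
  · exact hφi.comp (hψi.mono Set.inter_subset_left) (fun z hz => hz.2)
  · intro z hz u v
    have hd1 : DifferentiableAt ℝ ψ z :=
      (hψs.differentiableOn (by simp)).differentiableAt (hUψo.mem_nhds hz.1)
    have hd2 : DifferentiableAt ℝ φ (ψ z) :=
      (hφs.differentiableOn (by simp)).differentiableAt (hUφo.mem_nhds hz.2)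
    rw [fderiv_comp z hd2 hd1]
    simp only [ContinuousLinearMap.comp_apply]
    rw [hφω _ hz.2, hψω _ hz.1]

theorem packs_of_two_ball (n : ℕ)
    (h2 : ∀ a b R : ℝ, 0 < a → 0 < b → a + b < R →
      ∃ φ ψ : Cn n → Cn n, IsSympEmb n a φ ∧ IsSympEmb n b ψ ∧
        φ '' cball n a ⊆ oball n R ∧ ψ '' cball n b ⊆ oball n R ∧
        Disjoint (φ '' cball n a) (ψ '' cball n b)) :
    ∀ (k : ℕ) (r : Fin k → ℝ), (∀ i, 0 < r i) → ∀ R : ℝ, ∑ i, r i < R → Packs n k r R := by
  intro k
  induction k with
  | zero =>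
    intro r _ R _
    exact ⟨fun i => i.elim0, fun i => i.elim0, fun i => i.elim0, fun i => i.elim0⟩
  | succ k ih =>
    intro r hr R hR
    rcases Nat.eq_zero_or_pos k with rfl | hk
    · refine ⟨fun _ => id, fun i => isSympEmb_id n _, ?_, ?_⟩
      · intro i
        rw [Set.image_id]
        intro z hz
        have hi : r i < R := by
          have h0 : i = 0 := Fin.ext (by omega)
          subst h0
          simpa using hR
        simp only [oball, cball, Set.mem_ofPred_eq] at hz ⊢
        exact lt_of_le_of_lt hz hi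
      · intro i j hij
        exact absurd (Fin.ext (by omega)) hij
    · rw [Fin.sum_univ_succ] at hR
      have hT : 0 < ∑ i : Fin k, r i.succ :=
        Finset.sum_pos (fun i _ => hr _) ⟨⟨0, hk⟩, Finset.mem_univ _⟩
      obtain ⟨b, hTb, hab⟩ : ∃ b : ℝ, ∑ i : Fin k, r i.succ < b ∧ r 0 + b < R :=
        ⟨(∑ i : Fin k, r i.succ + R - r 0) / 2, by linarith, by linarith⟩
      obtain ⟨φa, φb, hφa, hφb, hia, hib, hdis⟩ := h2 (r 0) b R (hr 0) (hT.trans hTb) hab
      obtain ⟨ψ, hψ1, hψ2, hψ3⟩ := ih (fun i => r i.succ) (fun i => hr _) b hTb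
      have hoc : oball n b ⊆ cball n b := fun z hz => by
        simp only [oball, cball, Set.mem_ofPred_eq] at hz ⊢
        exact le_of_lt hz
      have himg : ∀ i : Fin k, (φb ∘ ψ i) '' cball n (r i.succ) ⊆ φb '' cball n b := by
        intro i
        rw [Set.image_comp]
        exact Set.image_mono ((hψ2 i).trans hoc)
      refine ⟨Fin.cons φa (fun i => φb ∘ ψ i), ?_, ?_, ?_⟩
      · intro i
        refine Fin.cases ?_ (fun i => ?_) i
        · simpa using hφa
        · simpa using isSympEmb_comp hφb (hψ1 i) (hψ2 i)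
      · intro i
        refine Fin.cases ?_ (fun i => ?_) i
        · simpa using hia
        · simpa using (himg i).trans hib
      · intro i
        refine Fin.cases ?_ (fun i => ?_) i
        · intro j
          refine Fin.cases ?_ (fun j => ?_) j
          · intro h; exact absurd rfl h
          · intro _
            simpa using hdis.mono_right (himg j)
        · intro j
          refine Fin.cases ?_ (fun j => ?_) j
          · intro _
            simpa using (hdis.mono_right (himg i)).symm
          · intro hij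
            have hij' : i ≠ j := fun h => hij (by rw [h])
            simp only [Fin.cons_succ]
            obtain ⟨U, _, hUc, _, hinj, _⟩ := hφb
            rw [Set.disjoint_left]
            rintro x ⟨z1, hz1, rfl⟩ ⟨z2, hz2, hz⟩
            have m1 : ψ i z1 ∈ ψ i '' cball n (r i.succ) := ⟨z1, hz1, rfl⟩
            have m2 : ψ j z2 ∈ ψ j '' cball n (r j.succ) := ⟨z2, hz2, rfl⟩
            have heq : ψ j z2 = ψ i z1 :=
              hinj (hUc (hoc (hψ2 j m2))) (hUc (hoc (hψ2 i m1))) hz
            exact Set.disjoint_left.1 (hψ3 i j hij') m1 (heq ▸ m2)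

end Vale.Agent.P209
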