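import Mathlib

/-!
# P209 (symplectic ball packings): definitions
-/

namespace Vale.Agent.P209

/-- `ℂ^n`. -/
abbrev Cn (n : ℕ) := EuclideanSpace ℂ (Fin n)

/-- The standard symplectic form `ω₀ = ∑ dx_j ∧ dy_j`. -/
noncomputable def omega {n : ℕ} (u v : Cn n) : ℝ :=
  ∑ j, ((u j).re * (v j).im - (u j).im * (v j).re)

/-- The closed ball of capacity `R`. -/
def cball (n : ℕ) (R : ℝ) : Set (Cn n) := {z | Real.pi * ∑ j, ‖z j‖ ^ 2 ≤ R}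

/-- The open ball of capacity `R`. -/
def oball (n : ℕ) (R : ℝ) : Set (Cn n) := {z | Real.pi * ∑ j, ‖z j‖ ^ 2 < R}

/-- `φ` restricts to a symplectic embedding of the closed ball of capacity `R`: it is smooth and
injective on an open neighbourhood of the ball and pulls `ω₀` back to `ω₀` there. -/
def IsSympEmb (n : ℕ) (R : ℝ) (φ : Cn n → Cn n) : Prop :=
  ∃ U : Set (Cn n), IsOpen U ∧ cball n R ⊆ U ∧
    ContDiffOn ℝ ((⊤ : ℕ∞) : WithTop ℕ∞) φ U ∧ Set.InjOn φ U ∧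
    ∀ z ∈ U, ∀ u v, omega (fderiv ℝ φ z u) (fderiv ℝ φ z v) = omega u v

/-- The closed balls of capacities `r i` admit a symplectic packing into the open ball of
capacity `R`. -/
def Packs (n k : ℕ) (r : Fin k → ℝ) (R : ℝ) : Prop :=
  ∃ φ : Fin k → Cn n → Cn n, (∀ i, IsSympEmb n (r i) (φ i)) ∧
    (∀ i, φ i '' cball n (r i) ⊆ oball n R) ∧
    ∀ i j, i ≠ j → Disjoint (φ i '' cball n (r i)) (φ j '' cball n (r j))

/-- The section `z ↦ (√(ρ² - |z|²), z)` of the sphere of radius `ρ` in `ℂ^(n+1)`. -/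
noncomputable def sig (n : ℕ) (ρ : ℝ) (z : Cn n) : Cn (n + 1) :=
  WithLp.toLp 2 (Fin.cons ((Real.sqrt (ρ ^ 2 - ‖z‖ ^ 2) : ℝ) : ℂ) (fun j => z j))

/-- The last `n` coordinates. -/
noncomputable def tl {n : ℕ} (w : Cn (n + 1)) : Cn n := WithLp.toLp 2 (fun j => w j.succ)

/-- The first basis vector of `ℂ^(n+1)`. -/
noncomputable def e0 (n : ℕ) : Cn (n + 1) := EuclideanSpace.single 0 1

/-- The phase `conj(w₀)/|w₀|`. -/
noncomputable def ph {n : ℕ} (w : Cn (n + 1)) : ℂ := (starRingEnd ℂ (w 0)) / (‖w 0‖ : ℂ)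

/-- The map `Φ⁻¹ ∘ U ∘ Φ` in the affine chart of `ℂP^n` (`Φ(z) = [σ(z)]`). -/
noncomputable def F (n : ℕ) (ρ : ℝ) (U : Cn (n + 1) ≃ₗᵢ[ℂ] Cn (n + 1)) (z : Cn n) : Cn n :=
  ph (U (sig n ρ z)) • tl (U (sig n ρ z))

/-- The domain of `F`. -/
def dom (n : ℕ) (ρ : ℝ) (U : Cn (n + 1) ≃ₗᵢ[ℂ] Cn (n + 1)) : Set (Cn n) :=
  {z | ‖z‖ < ρ ∧ U (sig n ρ z) 0 ≠ 0}

end Vale.Agent.P209
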