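import Vale.Agent.Lib.P209.Defs

/-!
# P209 module D: a ball inside the domain of `F`; unitaries with prescribed first column
(FROZEN statements, two independent lemmas)

* `mem_dom`.  Put `s = √(ρ²-‖z‖²)`, `c = |(U e0) 0| ≤ 1`, `z̃ = sig z - s • e0 = (0,z)`, `‖z̃‖ = ‖z‖`,
  `z̃ ⟂ e0`.  `(U (sig z)) 0 = s (U e0) 0 + (U z̃) 0` and `(U z̃) 0 = ⟪e0, U z̃⟫`.  As `U z̃ ⟂ U e0`,
  `⟪e0, U z̃⟫ = ⟪e0 - ⟪U e0, e0⟫ • U e0, U z̃⟫`, whose modulus is `≤ √(1-c²) ‖z‖`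
  (Cauchy-Schwarz, `‖e0 - ⟪U e0,e0⟫ U e0‖² = 1 - c²`).  If `(U (sig z)) 0 = 0` then
  `s c ≤ √(1-c²) ‖z‖`, i.e. `(ρ²-‖z‖²) c² ≤ (1-c²) ‖z‖²`, i.e. `ρ² c² ≤ ‖z‖²`: contradiction.
  `‖z‖ < ρ` follows from `c ≤ 1`.
* `exists_isometry`: extend `{u}` to an orthonormal basis indexed by `Fin (n+1)` with `b 0 = u`
  (`Orthonormal.exists_orthonormalBasis_extension_of_card_eq` or `exists_orthonormalBasis...`) and
  use `(EuclideanSpace.basisFun _ ℂ).equiv b (Equiv.refl _)`.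
-/

namespace Vale.Agent.P209

variable {n : ℕ} {ρ : ℝ}

theorem mem_dom (hρ : 0 < ρ) (U : Cn (n + 1) ≃ₗᵢ[ℂ] Cn (n + 1)) {z : Cn n}
    (hz : ‖z‖ ^ 2 < ρ ^ 2 * ‖U (e0 n) 0‖ ^ 2) : z ∈ dom n ρ U := by
  set a : Cn (n+1) := U.symm (e0 n) with ha
  have hcoord : ∀ w : Cn (n+1), U w 0 = inner ℂ a w := by
    intro w
    have h1 : inner ℂ (e0 n) (U w) = U w 0 := by
      simp [e0, EuclideanSpace.inner_single_left]
    rw [← h1, ha]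
    exact (LinearIsometryEquiv.inner_map_eq_flip U.symm (e0 n) w).symm ▸ (by simp)
  have hna : ‖a‖ = 1 := by
    rw [ha, LinearIsometryEquiv.norm_map]; simp [e0]
  have hsplit : ‖a 0‖ ^ 2 + ‖tl a‖ ^ 2 = 1 := by
    have : ‖a‖ ^ 2 = 1 := by rw [hna]; norm_num
    rw [EuclideanSpace.norm_sq_eq, Fin.sum_univ_succ] at this
    rw [EuclideanSpace.norm_sq_eq]
    simpa [tl] using this
  have hc : ‖U (e0 n) 0‖ = ‖a 0‖ := by
    rw [hcoord]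
    simp [e0, EuclideanSpace.inner_single_right]
  rw [hc] at hz
  have hc1 : ‖a 0‖ ^ 2 ≤ 1 := by nlinarith [sq_nonneg ‖tl a‖]
  have hzρ2 : ‖z‖ ^ 2 < ρ ^ 2 := by nlinarith [sq_nonneg ρ, sq_nonneg ‖z‖]
  have hzρ : ‖z‖ < ρ := by
    exact lt_of_pow_lt_pow_left₀ 2 hρ.le hzρ2
  refine ⟨hzρ, ?_⟩
  intro h0
  rw [hcoord] at h0
  set s : ℝ := Real.sqrt (ρ ^ 2 - ‖z‖ ^ 2) with hs
  have hs2 : s ^ 2 = ρ ^ 2 - ‖z‖ ^ 2 := Real.sq_sqrt (by linarith)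
  have hexp : inner ℂ a (sig n ρ z) = (s : ℂ) * starRingEnd ℂ (a 0) + inner ℂ (tl a) z := by
    rw [PiLp.inner_apply, Fin.sum_univ_succ, PiLp.inner_apply]
    simp [sig, tl, hs]
  rw [hexp] at h0
  have h1 : ‖(s : ℂ) * starRingEnd ℂ (a 0)‖ = ‖inner ℂ (tl a) z‖ := by
    have : (s : ℂ) * starRingEnd ℂ (a 0) = - inner ℂ (tl a) z := by
      linear_combination h0
    rw [this, norm_neg]
  have h2 : ‖inner ℂ (tl a) z‖ ≤ ‖tl a‖ * ‖z‖ := norm_inner_le_norm _ _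
  have h3 : ‖(s : ℂ) * starRingEnd ℂ (a 0)‖ = s * ‖a 0‖ := by
    rw [norm_mul, RCLike.norm_conj, Complex.norm_real, Real.norm_of_nonneg (Real.sqrt_nonneg _)]
  have h4 : s * ‖a 0‖ ≤ ‖tl a‖ * ‖z‖ := by rw [← h3, h1]; exact h2
  have h5 : (s * ‖a 0‖) ^ 2 ≤ (‖tl a‖ * ‖z‖) ^ 2 :=
    pow_le_pow_left₀ (mul_nonneg (Real.sqrt_nonneg _) (norm_nonneg _)) h4 2
  rw [mul_pow, mul_pow, hs2] at h5
  have h6 : ‖tl a‖ ^ 2 = 1 - ‖a 0‖ ^ 2 := by linarith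
  rw [h6] at h5
  nlinarith

theorem exists_isometry (u : Cn (n + 1)) (hu : ‖u‖ = 1) :
    ∃ U : Cn (n + 1) ≃ₗᵢ[ℂ] Cn (n + 1), U (e0 n) = u := by
  have hv : Orthonormal ℂ (({0} : Set (Fin (n+1))).domRestrict (fun _ => u)) := by
    constructor
    · intro i; exact hu
    · intro i j hij
      exact absurd (Subsingleton.elim i j) hij
  obtain ⟨b, hb⟩ := Orthonormal.exists_orthonormalBasis_extension_of_card_eq
    (𝕜 := ℂ) (E := Cn (n+1)) (ι := Fin (n+1)) (by simp) hv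
  refine ⟨(EuclideanSpace.basisFun (Fin (n+1)) ℂ).equiv b (Equiv.refl _), ?_⟩
  have h0 : e0 n = EuclideanSpace.basisFun (Fin (n+1)) ℂ 0 := by
    simp [e0]
  rw [h0, OrthonormalBasis.equiv_apply_basis]
  simpa using hb 0 (by simp)

end Vale.Agent.P209
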