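import Vale.Agent.Lib.P209.Defs

/-!
# P209 module L: algebra of the map `F` on the sphere   (FROZEN statements)

Write `w = U (sig z)`, `θ = ph w = conj(w 0)/|w 0|` (`|θ| = 1` when `w 0 ≠ 0`).
* `norm_sig`: `‖sig z‖² = (ρ² - ‖z‖²) + ‖z‖²` (`EuclideanSpace.norm_sq_eq`, `Fin.sum_univ_succ`,
  `Real.sq_sqrt`).
* `sig_F`: `‖F z‖² = ‖tl w‖² = ρ² - |w 0|²`, so the 0-th coordinate of `sig (F z)` is
  `√(|w 0|²) = |w 0| = θ * w 0`; the other coordinates agree by definition.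
* `norm_F_lt`: `‖F z‖² = ρ² - |w 0|² < ρ²`.
* `injOn_F`: `F z = F z'` gives `θ • U (sig z) = θ' • U (sig z')` by `sig_F`, so
  `sig z = λ • sig z'` with `|λ| = 1`; the 0-th coordinates are positive reals, so `λ = 1`;
  compare the tails.
* `F_ne_F`: if `F U z = F U' z'` then `w := θ • U (sig z) = θ' • U' (sig z')`, `‖w‖ = ρ`,
  `|⟪U e0, w⟫| = |⟪e0, sig z⟫| = √(ρ²-‖z‖²)`, same for `U'`; Bessel for the orthonormal pair
  `U e0, U' e0`: `(ρ²-‖z‖²) + (ρ²-‖z'‖²) ≤ ρ²`, contradiction.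
-/

namespace Vale.Agent.P209

variable {n : ℕ} {ρ : ℝ}

private theorem sig_zero (z : Cn n) :
    sig n ρ z 0 = ((Real.sqrt (ρ ^ 2 - ‖z‖ ^ 2) : ℝ) : ℂ) := rfl

private theorem sig_succ (z : Cn n) (j : Fin n) : sig n ρ z j.succ = z j := rfl

private theorem tl_apply (w : Cn (n + 1)) (j : Fin n) : tl w j = w j.succ := rfl

private theorem norm_sq_split (w : Cn (n + 1)) : ‖w‖ ^ 2 = ‖w 0‖ ^ 2 + ‖tl w‖ ^ 2 := by
  rw [EuclideanSpace.norm_sq_eq, EuclideanSpace.norm_sq_eq, Fin.sum_univ_succ]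
  rfl

private theorem tl_sig (z : Cn n) : tl (sig n ρ z) = z := by
  ext j
  rfl

theorem norm_sig (hρ : 0 < ρ) {z : Cn n} (hz : ‖z‖ ≤ ρ) : ‖sig n ρ z‖ = ρ := by
  have h : ‖sig n ρ z‖ ^ 2 = ρ ^ 2 := by
    rw [norm_sq_split, tl_sig, sig_zero, Complex.norm_real, Real.norm_eq_abs, sq_abs,
      Real.sq_sqrt]
    · ring
    · nlinarith [norm_nonneg z]
  have h1 : 0 ≤ ‖sig n ρ z‖ := norm_nonneg _
  nlinarith [sq_nonneg (‖sig n ρ z‖ - ρ), sq_nonneg (‖sig n ρ z‖ + ρ)]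

private theorem norm_ph {w : Cn (n + 1)} (hw : w 0 ≠ 0) : ‖ph w‖ = 1 := by
  unfold ph
  rw [norm_div, RCLike.norm_conj, Complex.norm_real, norm_norm]
  exact div_self (norm_ne_zero_iff.mpr hw)

private theorem ph_mul {w : Cn (n + 1)} (hw : w 0 ≠ 0) : ph w * w 0 = ((‖w 0‖ : ℝ) : ℂ) := by
  unfold ph
  have h : ((‖w 0‖ : ℝ) : ℂ) ≠ 0 := by
    exact_mod_cast norm_ne_zero_iff.mpr hw
  rw [div_mul_eq_mul_div, div_eq_iff h, mul_comm, Complex.mul_conj, Complex.normSq_eq_norm_sq]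
  push_cast
  ring

private theorem norm_sq_F (hρ : 0 < ρ) (U : Cn (n + 1) ≃ₗᵢ[ℂ] Cn (n + 1)) {z : Cn n}
    (hz : z ∈ dom n ρ U) : ‖F n ρ U z‖ ^ 2 = ρ ^ 2 - ‖U (sig n ρ z) 0‖ ^ 2 := by
  have h1 : ‖U (sig n ρ z)‖ = ρ := by
    rw [LinearIsometryEquiv.norm_map]
    exact norm_sig hρ hz.1.le
  have h2 := norm_sq_split (U (sig n ρ z))
  unfold F
  rw [norm_smul, norm_ph hz.2, one_mul]
  rw [h1] at h2
  linarith

theorem sig_F (hρ : 0 < ρ) (U : Cn (n + 1) ≃ₗᵢ[ℂ] Cn (n + 1)) {z : Cn n}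
    (hz : z ∈ dom n ρ U) :
    sig n ρ (F n ρ U z) = ph (U (sig n ρ z)) • U (sig n ρ z) := by
  ext j
  refine Fin.cases ?_ (fun i => ?_) j
  · rw [sig_zero, norm_sq_F hρ U hz]
    have : (ph (U (sig n ρ z)) • U (sig n ρ z)) 0 = ph (U (sig n ρ z)) * U (sig n ρ z) 0 := rfl
    rw [this, ph_mul hz.2]
    congr 1
    rw [sub_sub_cancel, Real.sqrt_sq (norm_nonneg _)]
  · rfl

theorem norm_F_lt (hρ : 0 < ρ) (U : Cn (n + 1) ≃ₗᵢ[ℂ] Cn (n + 1)) {z : Cn n}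
    (hz : z ∈ dom n ρ U) : ‖F n ρ U z‖ < ρ := by
  have h := norm_sq_F hρ U hz
  have h1 : 0 < ‖U (sig n ρ z) 0‖ := norm_pos_iff.mpr hz.2
  have h2 : 0 ≤ ‖F n ρ U z‖ := norm_nonneg _
  nlinarith

private theorem sqrt_pos_of_dom {U : Cn (n + 1) ≃ₗᵢ[ℂ] Cn (n + 1)} {z : Cn n}
    (hz : z ∈ dom n ρ U) : 0 < Real.sqrt (ρ ^ 2 - ‖z‖ ^ 2) := by
  apply Real.sqrt_pos.mpr
  have := hz.1
  nlinarith [norm_nonneg z]

theorem injOn_F (hρ : 0 < ρ) (U : Cn (n + 1) ≃ₗᵢ[ℂ] Cn (n + 1)) :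
    Set.InjOn (F n ρ U) (dom n ρ U) := by
  intro z hz z' hz' h
  have h1 : ph (U (sig n ρ z)) • U (sig n ρ z) = ph (U (sig n ρ z')) • U (sig n ρ z') := by
    rw [← sig_F hρ U hz, ← sig_F hρ U hz', h]
  rw [← map_smul, ← map_smul] at h1
  have h2 := U.injective h1
  set θ := ph (U (sig n ρ z)) with hθ
  set θ' := ph (U (sig n ρ z')) with hθ'
  have hn : ‖θ‖ = 1 := norm_ph hz.2
  have hn' : ‖θ'‖ = 1 := norm_ph hz'.2
  have h0 : θ * ((Real.sqrt (ρ ^ 2 - ‖z‖ ^ 2) : ℝ) : ℂ)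
      = θ' * ((Real.sqrt (ρ ^ 2 - ‖z'‖ ^ 2) : ℝ) : ℂ) := congrArg (fun w => w 0) h2
  have hs := sqrt_pos_of_dom hz
  have hs' := sqrt_pos_of_dom hz'
  have h3 : Real.sqrt (ρ ^ 2 - ‖z‖ ^ 2) = Real.sqrt (ρ ^ 2 - ‖z'‖ ^ 2) := by
    have := congrArg norm h0
    rw [norm_mul, norm_mul, hn, hn', one_mul, one_mul, Complex.norm_real, Complex.norm_real,
      Real.norm_eq_abs, Real.norm_eq_abs, abs_of_pos hs, abs_of_pos hs'] at this
    exact this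
  rw [h3] at h0
  have h4 : θ = θ' := by
    refine mul_right_cancel₀ ?_ h0
    exact_mod_cast hs'.ne'
  have hθ0 : θ ≠ 0 := by
    intro h
    rw [h, norm_zero] at hn
    exact zero_ne_one hn
  ext j
  have h5 : θ * z j = θ' * z' j := congrArg (fun w => w j.succ) h2
  rw [← h4] at h5
  exact mul_left_cancel₀ hθ0 h5

theorem F_ne_F (hρ : 0 < ρ) (U U' : Cn (n + 1) ≃ₗᵢ[ℂ] Cn (n + 1))
    (horth : inner ℂ (U (e0 n)) (U' (e0 n)) = 0) {z z' : Cn n}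
    (hz : z ∈ dom n ρ U) (hz' : z' ∈ dom n ρ U') (hlt : ‖z‖ ^ 2 + ‖z'‖ ^ 2 < ρ ^ 2) :
    F n ρ U z ≠ F n ρ U' z' := by
  intro h
  have h1 : ph (U (sig n ρ z)) • U (sig n ρ z) = ph (U' (sig n ρ z')) • U' (sig n ρ z') := by
    rw [← sig_F hρ U hz, ← sig_F hρ U' hz', h]
  set θ := ph (U (sig n ρ z)) with hθ
  set θ' := ph (U' (sig n ρ z')) with hθ'
  have hn : ‖θ‖ = 1 := norm_ph hz.2
  have hn' : ‖θ'‖ = 1 := norm_ph hz'.2
  set w := θ • U (sig n ρ z) with hw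
  have hwn : ‖w‖ = ρ := by
    rw [hw, norm_smul, hn, one_mul, LinearIsometryEquiv.norm_map]
    exact norm_sig hρ hz.1.le
  have he0 : ‖e0 n‖ = 1 := by
    simp [e0]
  have hin : ∀ x : Cn (n + 1), inner ℂ (e0 n) x = x 0 := by
    intro x
    simp [e0, EuclideanSpace.inner_single_left]
  have ha : ‖inner ℂ (U (e0 n)) w‖ ^ 2 = ρ ^ 2 - ‖z‖ ^ 2 := by
    rw [hw, inner_smul_right, LinearIsometryEquiv.inner_map_map, hin, sig_zero, norm_mul, hn,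
      one_mul, Complex.norm_real, Real.norm_eq_abs, sq_abs, Real.sq_sqrt]
    have := hz.1
    nlinarith [norm_nonneg z]
  have hb : ‖inner ℂ (U' (e0 n)) w‖ ^ 2 = ρ ^ 2 - ‖z'‖ ^ 2 := by
    rw [h1, inner_smul_right, LinearIsometryEquiv.inner_map_map, hin, sig_zero, norm_mul, hn',
      one_mul, Complex.norm_real, Real.norm_eq_abs, sq_abs, Real.sq_sqrt]
    have := hz'.1
    nlinarith [norm_nonneg z']
  have hon : Orthonormal ℂ ![U (e0 n), U' (e0 n)] := by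
    constructor
    · intro i
      fin_cases i
      · simp [he0]
      · simp [he0]
    · intro i j hij
      fin_cases i <;> fin_cases j
      · exact absurd rfl hij
      · simpa using horth
      · have : inner ℂ (U' (e0 n)) (U (e0 n)) = 0 := inner_eq_zero_symm.mp horth
        simpa using this
      · exact absurd rfl hij
  have hB := hon.sum_inner_products_le (s := Finset.univ) w
  rw [Fin.sum_univ_two] at hB
  simp only [Matrix.cons_val_zero, Matrix.cons_val_one] at hB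
  rw [ha, hb, hwn] at hB
  linarith

end Vale.Agent.P209
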