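import Vale.Agent.Lib.P209.TwoBall
import Vale.Agent.Lib.P209.Compose

/-!
# P209: nesting of packings and the cluster theorem
-/

namespace Vale.Agent.P209

theorem oball_sub_cball (n : ℕ) (b : ℝ) : oball n b ⊆ cball n b := fun z hz => by
  simp only [oball, cball, Set.mem_ofPred_eq] at hz ⊢
  exact le_of_lt hz

/-- Nesting: pack the balls of each group into a ball of capacity `s j`, and those into `R`. -/
theorem packs_nest {n k m : ℕ} (r : Fin k → ℝ) (s : Fin m → ℝ) (g : Fin k → Fin m) (R : ℝ)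
    (hs : Packs n m s R) (ψ : Fin k → Cn n → Cn n) (h1 : ∀ i, IsSympEmb n (r i) (ψ i))
    (h2 : ∀ i, ψ i '' cball n (r i) ⊆ oball n (s (g i)))
    (h3 : ∀ i j, i ≠ j → g i = g j → Disjoint (ψ i '' cball n (r i)) (ψ j '' cball n (r j))) :
    Packs n k r R := by
  obtain ⟨φ, hφ1, hφ2, hφ3⟩ := hs
  have himg : ∀ i : Fin k, (φ (g i) ∘ ψ i) '' cball n (r i) ⊆ φ (g i) '' cball n (s (g i)) := by
    intro i
    rw [Set.image_comp]
    exact Set.image_mono ((h2 i).trans (oball_sub_cball n _))
  refine ⟨fun i => φ (g i) ∘ ψ i, fun i => isSympEmb_comp (hφ1 (g i)) (h1 i) (h2 i),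
    fun i => (himg i).trans (hφ2 (g i)), ?_⟩
  intro i j hij
  by_cases hg : g i = g j
  · obtain ⟨U, _, hUc, _, hinj, _⟩ := hφ1 (g i)
    rw [Set.disjoint_left]
    rintro x ⟨z1, hz1, rfl⟩ ⟨z2, hz2, hz⟩
    have m1 : ψ i z1 ∈ ψ i '' cball n (r i) := ⟨z1, hz1, rfl⟩
    have m2 : ψ j z2 ∈ ψ j '' cball n (r j) := ⟨z2, hz2, rfl⟩
    have m2' : ψ j z2 ∈ oball n (s (g i)) := by rw [hg]; exact h2 j m2
    have hz' : φ (g i) (ψ j z2) = φ (g i) (ψ i z1) := by
      have := hz
      simp only [Function.comp_apply] at this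
      rw [← hg] at this
      exact this
    have heq : ψ j z2 = ψ i z1 :=
      hinj (hUc (oball_sub_cball n _ m2')) (hUc (oball_sub_cball n _ (h2 i m1))) hz'
    exact Set.disjoint_left.1 (h3 i j hij hg) m1 (heq ▸ m2)
  · exact ((hφ3 (g i) (g j) hg).mono_left (himg i)).mono_right (himg j)

/-- Cluster theorem: groups of balls whose capacities add up to less than `S j`. -/
theorem packs_cluster (n k m : ℕ) (hn : 1 ≤ n) (r : Fin k → ℝ) (hr : ∀ i, 0 < r i)
    (S : Fin m → ℝ) (g : Fin k → Fin m) (R : ℝ)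
    (hS : ∀ j, ∑ i with g i = j, r i < S j) (hP : Packs n m S R) : Packs n k r R := by
  classical
  have key : ∀ j : Fin m, ∃ φ : Fin k → Cn n → Cn n,
      (∀ i, g i = j → IsSympEmb n (r i) (φ i)) ∧
      (∀ i, g i = j → φ i '' cball n (r i) ⊆ oball n (S j)) ∧
      ∀ i i', i ≠ i' → g i = j → g i' = j →
        Disjoint (φ i '' cball n (r i)) (φ i' '' cball n (r i')) := by
    intro j
    obtain ⟨ε, hε, hεk⟩ : ∃ ε : ℝ, 0 < ε ∧ ((k : ℝ) + 1) * ε = S j - ∑ i with g i = j, r i := by
      refine ⟨(S j - ∑ i with g i = j, r i) / ((k : ℝ) + 1),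
        div_pos (sub_pos.2 (hS j)) (by positivity), ?_⟩
      field_simp
    have hpos : ∀ i, 0 < (if g i = j then r i else ε) := by
      intro i
      split_ifs
      · exact hr i
      · exact hε
    have hsum : ∑ i, (if g i = j then r i else ε) < S j := by
      rw [Finset.sum_ite]
      have hc : ∑ i with ¬ g i = j, ε ≤ (k : ℝ) * ε := by
        rw [Finset.sum_const, nsmul_eq_mul]
        have h1 : ((Finset.univ.filter (fun i : Fin k => ¬ g i = j)).card : ℝ) ≤ k := by
          have h0 := Finset.card_le_univ (Finset.univ.filter (fun i : Fin k => ¬ g i = j))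
          rw [Fintype.card_fin] at h0
          exact_mod_cast h0
        exact mul_le_mul_of_nonneg_right h1 hε.le
      nlinarith
    obtain ⟨φ, h1, h2, h3⟩ := packs_of_two_ball n (two_ball n hn) k _ hpos (S j) hsum
    refine ⟨φ, ?_, ?_, ?_⟩
    · intro i hi
      have := h1 i
      simp only [if_pos hi] at this
      exact this
    · intro i hi
      have := h2 i
      simp only [if_pos hi] at this
      exact this
    · intro i i' hne hi hi'
      have := h3 i i' hne
      simp only [if_pos hi, if_pos hi'] at this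
      exact this
  choose Φ h1 h2 h3 using key
  refine packs_nest r S g R hP (fun i => Φ (g i) i) (fun i => h1 (g i) i rfl)
    (fun i => h2 (g i) i rfl) ?_
  intro i i' hne hg
  have := h3 (g i) i i' hne rfl hg.symm
  rw [← hg]
  exact this

end Vale.Agent.P209
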