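import Vale.Agent.Lib.P209.Defs

/-!
# P209 module S: `dom` is open and `F` is smooth on it   (FROZEN statements)

* `sig` is continuous everywhere (`Real.continuous_sqrt`), so `dom` is open.
* On `‖z‖ < ρ`: `ρ² - ‖z‖² > 0`, `Real.sqrt` is smooth there (`ContDiffAt.sqrt`), `‖z‖²` is smooth
  (`contDiff_norm_sq ℝ`); a map into `EuclideanSpace` is smooth iff its coordinates are
  (`contDiff_euclidean` / `contDiffOn_euclidean`); `U` is a continuous ℝ-linear map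
  (restrict scalars); `w ↦ w 0`, `conj`, `‖·‖` away from `0` (`ContDiffAt.norm`), division,
  `smul` are smooth.
-/

namespace Vale.Agent.P209

variable {n : ℕ} {ρ : ℝ}

private theorem sig_zero (z : Cn n) :
    sig n ρ z 0 = ((Real.sqrt (ρ ^ 2 - ‖z‖ ^ 2) : ℝ) : ℂ) := rfl

private theorem sig_succ (z : Cn n) (j : Fin n) : sig n ρ z j.succ = z j := rfl

private theorem continuous_sig : Continuous (sig n ρ) := by
  refine (PiLp.continuous_toLp 2 _).comp (continuous_pi fun i => ?_)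
  refine Fin.cases ?_ (fun j => ?_) i
  · simp only [Fin.cons_zero]
    exact Complex.continuous_ofReal.comp
      (Real.continuous_sqrt.comp (continuous_const.sub (continuous_norm.pow 2)))
  · simp only [Fin.cons_succ]
    exact (continuous_apply j).comp (PiLp.continuous_ofLp 2 _)

theorem isOpen_dom (U : Cn (n + 1) ≃ₗᵢ[ℂ] Cn (n + 1)) : IsOpen (dom n ρ U) := by
  have h1 : IsOpen {z : Cn n | ‖z‖ < ρ} := isOpen_lt continuous_norm continuous_const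
  have hc : Continuous fun z : Cn n => U (sig n ρ z) 0 :=
    ((continuous_apply (0 : Fin (n + 1))).comp (PiLp.continuous_ofLp 2 _)).comp
      (U.continuous.comp continuous_sig)
  have h2 : IsOpen {z : Cn n | U (sig n ρ z) 0 ≠ 0} := isOpen_ne_fun hc continuous_const
  exact h1.inter h2

theorem contDiffOn_sig : ContDiffOn ℝ ((⊤ : ℕ∞) : WithTop ℕ∞) (sig n ρ) {z | ‖z‖ < ρ} := by
  refine (contDiffOn_piLp 2).2 fun i => ?_
  refine Fin.cases ?_ (fun j => ?_) i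
  · have h : ContDiffOn ℝ ((⊤ : ℕ∞) : WithTop ℕ∞)
        (fun z : Cn n => Real.sqrt (ρ ^ 2 - ‖z‖ ^ 2)) {z | ‖z‖ < ρ} := by
      intro z hz
      have hz' : ‖z‖ < ρ := hz
      have hpos : ρ ^ 2 - ‖z‖ ^ 2 ≠ 0 := by
        have : ‖z‖ ^ 2 < ρ ^ 2 := by
          have h0 := norm_nonneg z
          nlinarith
        exact (sub_pos.mpr this).ne'
      have : ContDiffAt ℝ ((⊤ : ℕ∞) : WithTop ℕ∞) (fun z : Cn n => ρ ^ 2 - ‖z‖ ^ 2) z :=
        contDiffAt_const.sub (contDiff_norm_sq ℝ).contDiffAt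
      exact (this.sqrt hpos).contDiffWithinAt
    exact Complex.ofRealCLM.contDiff.comp_contDiffOn h
  · have : ContDiff ℝ ((⊤ : ℕ∞) : WithTop ℕ∞) (fun z : Cn n => z j) := contDiff_piLp_apply 2
    exact this.contDiffOn

theorem contDiffOn_ph :
    ContDiffOn ℝ ((⊤ : ℕ∞) : WithTop ℕ∞) (ph (n := n)) {w | w 0 ≠ 0} := by
  intro w hw
  have hw' : w 0 ≠ 0 := hw
  have h0 : ContDiffAt ℝ ((⊤ : ℕ∞) : WithTop ℕ∞) (fun w : Cn (n + 1) => w 0) w :=
    contDiffAt_piLp_apply 2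
  have h1 : ContDiffAt ℝ ((⊤ : ℕ∞) : WithTop ℕ∞)
      (fun w : Cn (n + 1) => starRingEnd ℂ (w 0)) w :=
    Complex.conjCLE.contDiff.contDiffAt.comp w h0
  have h2 : ContDiffAt ℝ ((⊤ : ℕ∞) : WithTop ℕ∞) (fun w : Cn (n + 1) => ‖w 0‖) w :=
    h0.norm ℝ hw'
  have h3 : ContDiffAt ℝ ((⊤ : ℕ∞) : WithTop ℕ∞) (fun w : Cn (n + 1) => ((‖w 0‖ : ℝ) : ℂ)) w :=
    Complex.ofRealCLM.contDiff.contDiffAt.comp w h2
  have h4 : ((‖w 0‖ : ℝ) : ℂ) ≠ 0 := by
    simpa using hw'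
  have h5 : ContDiffAt ℝ ((⊤ : ℕ∞) : WithTop ℕ∞)
      (fun w : Cn (n + 1) => starRingEnd ℂ (w 0) * (((‖w 0‖ : ℝ) : ℂ))⁻¹) w :=
    h1.mul (h3.inv h4)
  have h6 : (ph (n := n)) = fun w : Cn (n + 1) => starRingEnd ℂ (w 0) * (((‖w 0‖ : ℝ) : ℂ))⁻¹ := by
    funext w
    simp only [ph, div_eq_mul_inv]
  rw [h6]
  exact h5.contDiffWithinAt

theorem contDiffOn_F (U : Cn (n + 1) ≃ₗᵢ[ℂ] Cn (n + 1)) :
    ContDiffOn ℝ ((⊤ : ℕ∞) : WithTop ℕ∞) (F n ρ U) (dom n ρ U) := by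
  have hU : ContDiff ℝ ((⊤ : ℕ∞) : WithTop ℕ∞) (fun w : Cn (n + 1) => U w) :=
    ((U.toContinuousLinearEquiv : Cn (n + 1) →L[ℂ] Cn (n + 1)).restrictScalars ℝ).contDiff
  have hs : ContDiffOn ℝ ((⊤ : ℕ∞) : WithTop ℕ∞) (fun z => U (sig n ρ z)) (dom n ρ U) :=
    hU.comp_contDiffOn (contDiffOn_sig.mono fun z hz => hz.1)
  have hp : ContDiffOn ℝ ((⊤ : ℕ∞) : WithTop ℕ∞) (fun z => ph (U (sig n ρ z))) (dom n ρ U) :=
    contDiffOn_ph.comp hs fun z hz => hz.2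
  have htl : ContDiff ℝ ((⊤ : ℕ∞) : WithTop ℕ∞) (tl (n := n)) := by
    refine (contDiff_piLp 2).2 fun j => ?_
    exact (contDiff_piLp_apply 2 : ContDiff ℝ _ (fun w : Cn (n + 1) => w j.succ))
  exact hp.smul (htl.comp_contDiffOn hs)

end Vale.Agent.P209
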