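import Vale.Agent.Lib.P209.Smooth
import Vale.Agent.Lib.P209.Lift

/-!
# P209 module Y: `F` is symplectic   (FROZEN statements)

* `omega_eq`: `Im (conj a * b) = a.re * b.im - a.im * b.re`, `PiLp.inner_apply`.
* `twist` (pure algebra): expand `⟪θ(a + iα w), θ(b + iβ w)⟫ = ⟪a,b⟫ + iβ⟪a,w⟫ - iα⟪w,b⟫ + αβ‖w‖²`
  (`|θ| = 1`); the imaginary part is `Im⟪a,b⟫ + β Re⟪a,w⟫ - α Re⟪w,b⟫`.
* `symp_F`.  Fix `z ∈ dom`.  `G := fun z => U (sig z)`, `θ := fun z => ph (G z)` are differentiable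
  at `z` (module S).  Let `a = DG u`, `b = DG v`, `w = G z`.
  (i) `‖G‖² = ρ²` near `z` (`norm_sig`), differentiate: `Re⟪w,a⟫ = 0 = Re⟪w,b⟫`.
  (ii) `Im⟪a,b⟫ = Im⟪Dσ u, Dσ v⟫ = Im⟪u,v⟫`: `U` preserves inner products, the 0-th coordinate of
  `Dσ u` is real (derivative of a real-valued function) and the tail of `Dσ u` is `u`.
  (iii) `|θ|² = 1` near `z`, differentiate: `Dθ u = i α θ` with `α` real.
  (iv) `Ftilde := θ • G = sig ∘ F` (`sig_F`) has derivative `θ • a + (Dθ u) • w = θ • (a + iα w)`; by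
  `twist`, `Im⟪DFtilde u, DFtilde v⟫ = Im⟪a,b⟫ = Im⟪u,v⟫`.
  (v) the 0-th coordinate of `Ftilde` is real (`= |w 0|`) so its derivative is real, and the tail of
  `Ftilde` is `F`: `Im⟪DFtilde u, DFtilde v⟫ = Im⟪DF u, DF v⟫`.
-/

namespace Vale.Agent.P209

variable {n : ℕ} {ρ : ℝ}

theorem omega_eq (u v : Cn n) : omega u v = (inner ℂ u v).im := by
  unfold omega
  rw [PiLp.inner_apply, Complex.im_sum]
  refine Finset.sum_congr rfl fun j _ => ?_
  simp [Complex.mul_im]
  ring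

theorem twist (w a b : Cn n) (θ : ℂ) (α β : ℝ) (hθ : ‖θ‖ = 1)
    (ha : (inner ℂ w a).re = 0) (hb : (inner ℂ w b).re = 0) :
    (inner ℂ (θ • (a + (Complex.I * α) • w)) (θ • (b + (Complex.I * β) • w))).im =
      (inner ℂ a b).im := by
  have h1 : θ * (starRingEnd ℂ θ) = 1 := by
    rw [Complex.mul_conj, Complex.normSq_eq_norm_sq, hθ]; simp
  have hww : inner ℂ w w = ((‖w‖ ^ 2 : ℝ) : ℂ) := by
    rw [inner_self_eq_norm_sq_to_K]; simp
  have haw : (inner ℂ a w).re = 0 := by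
    rw [← inner_conj_symm, Complex.conj_re]; exact ha
  rw [inner_smul_left, inner_smul_right, ← mul_assoc, mul_comm (starRingEnd ℂ θ) θ, h1, one_mul]
  rw [inner_add_left, inner_add_right, inner_add_right, inner_smul_left, inner_smul_right,
    inner_smul_left, inner_smul_right, hww]
  simp only [Complex.add_im, Complex.mul_im, Complex.mul_re, haw, hb, map_mul, Complex.conj_I,
    Complex.conj_ofReal, Complex.neg_re, Complex.neg_im, Complex.I_re, Complex.I_im,
    Complex.ofReal_re, Complex.ofReal_im]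
  ring

open Topology in
private theorem re_inner_fderiv_eq_zero {E H : Type*} [NormedAddCommGroup E] [NormedSpace ℝ E]
    [NormedAddCommGroup H] [InnerProductSpace ℝ H] {f : E → H} {f' : E →L[ℝ] H} {z : E} {c : ℝ}
    (hf : HasFDerivAt f f' z) (hc : ∀ᶠ x in 𝓝 z, ‖f x‖ = c) (u : E) :
    inner ℝ (f z) (f' u) = 0 := by
  have h1 := hf.norm_sq
  have h2 : HasFDerivAt (fun x => ‖f x‖ ^ 2) (0 : E →L[ℝ] ℝ) z :=
    (hasFDerivAt_const (c ^ 2) z).congr_of_eventuallyEq (hc.mono fun x hx => by simp [hx])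
  have h4 := congrArg (fun L : E →L[ℝ] ℝ => L u) (h1.unique h2)
  simpa using h4

private theorem im_fderiv_eq_zero {E : Type*} [NormedAddCommGroup E] [NormedSpace ℝ E]
    {f : E → ℂ} {f' : E →L[ℝ] ℂ} {z : E}
    (hf : HasFDerivAt f f' z) (hc : ∀ x, (f x).im = 0) (u : E) : (f' u).im = 0 := by
  have h1 : HasFDerivAt (fun x => Complex.imCLM (f x)) (Complex.imCLM.comp f') z :=
    Complex.imCLM.hasFDerivAt.comp z hf
  have h2 : HasFDerivAt (fun x => Complex.imCLM (f x)) (0 : E →L[ℝ] ℝ) z := by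
    have h3 : (fun x => Complex.imCLM (f x)) = fun _ => (0 : ℝ) := by
      funext x
      simpa using hc x
    rw [h3]
    exact hasFDerivAt_const _ _
  have h4 := congrArg (fun L : E →L[ℝ] ℝ => L u) (h1.unique h2)
  simpa using h4

private theorem tl_smul (c : ℂ) (x : Cn (n + 1)) : tl (c • x) = c • tl x := by
  ext j
  simp [tl]

private noncomputable def tlL (n : ℕ) : Cn (n + 1) →L[ℝ] Cn n :=
  (LinearMap.toContinuousLinearMap
    ({ toFun := tl
       map_add' := fun x y => by ext j; simp [tl]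
       map_smul' := fun c x => tl_smul c x } : Cn (n + 1) →ₗ[ℂ] Cn n)).restrictScalars ℝ

private theorem tlL_apply (x : Cn (n + 1)) : tlL n x = tl x := rfl

private noncomputable def p0L (n : ℕ) : Cn (n + 1) →L[ℝ] ℂ :=
  (EuclideanSpace.proj (0 : Fin (n + 1)) : Cn (n + 1) →L[ℂ] ℂ).restrictScalars ℝ

private theorem p0L_apply (x : Cn (n + 1)) : p0L n x = x 0 := rfl

private theorem inner_split (x y : Cn (n + 1)) :
    inner ℂ x y = starRingEnd ℂ (x 0) * y 0 + inner ℂ (tl x) (tl y) := by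
  rw [PiLp.inner_apply, PiLp.inner_apply, Fin.sum_univ_succ]
  simp [tl, mul_comm]

private theorem im_inner_of_real0 {Ψ : Cn n → Cn (n + 1)} {Ψ' : Cn n →L[ℝ] Cn (n + 1)} {z : Cn n}
    (hΨ : HasFDerivAt Ψ Ψ' z) (hreal : ∀ x, (Ψ x 0).im = 0) (u v : Cn n) :
    (inner ℂ (Ψ' u) (Ψ' v)).im = (inner ℂ (tl (Ψ' u)) (tl (Ψ' v))).im := by
  have h0 : HasFDerivAt (fun x => Ψ x 0) ((p0L n).comp Ψ') z := (p0L n).hasFDerivAt.comp z hΨ
  have hu : ((Ψ' u) 0).im = 0 := im_fderiv_eq_zero h0 hreal u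
  have hv : ((Ψ' v) 0).im = 0 := im_fderiv_eq_zero h0 hreal v
  rw [inner_split, Complex.add_im, Complex.mul_im]
  simp [hu, hv]

private theorem real_inner_eq (x y : Cn n) : (inner ℝ x y : ℝ) = (inner ℂ x y).re := by
  rw [PiLp.inner_apply, PiLp.inner_apply, Complex.re_sum]
  refine Finset.sum_congr rfl fun j _ => ?_
  rw [Complex.inner]
  simp [mul_comm]

private theorem ph_mul (w : Cn (n + 1)) : ph w * w 0 = ((‖w 0‖ : ℝ) : ℂ) := by
  unfold ph
  by_cases h : w 0 = 0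
  · simp [h]
  · have h1 : ((‖w 0‖ : ℝ) : ℂ) ≠ 0 := by
      simpa using h
    rw [div_mul_eq_mul_div, div_eq_iff h1, mul_comm, Complex.mul_conj, Complex.normSq_eq_norm_sq]
    push_cast
    ring

private theorem norm_ph {w : Cn (n + 1)} (h : w 0 ≠ 0) : ‖ph w‖ = 1 := by
  unfold ph
  rw [norm_div, RCLike.norm_conj, Complex.norm_real, norm_norm]
  exact div_self (by simpa using h)

open Topology in
theorem symp_F (hρ : 0 < ρ) (U : Cn (n + 1) ≃ₗᵢ[ℂ] Cn (n + 1)) {z : Cn n}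
    (hz : z ∈ dom n ρ U) (u v : Cn n) :
    omega (fderiv ℝ (F n ρ U) z u) (fderiv ℝ (F n ρ U) z v) = omega u v := by
  rw [omega_eq, omega_eq]
  have hnhds : dom n ρ U ∈ 𝓝 z := (isOpen_dom U).mem_nhds hz
  have hball : {x : Cn n | ‖x‖ < ρ} ∈ 𝓝 z :=
    (isOpen_lt continuous_norm continuous_const).mem_nhds hz.1
  have hσ : HasFDerivAt (sig n ρ) (fderiv ℝ (sig n ρ) z) z :=
    ((contDiffOn_sig.contDiffAt hball).differentiableAt (by simp)).hasFDerivAt
  set σ' := fderiv ℝ (sig n ρ) z with hσ'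
  let UL : Cn (n + 1) →L[ℝ] Cn (n + 1) :=
    (U.toLinearIsometry.toContinuousLinearMap).restrictScalars ℝ
  have hUL : ∀ x, UL x = U x := fun _ => rfl
  have hG : HasFDerivAt (fun x => U (sig n ρ x)) (UL.comp σ') z := UL.hasFDerivAt.comp z hσ
  have hw0 : {w : Cn (n + 1) | w 0 ≠ 0} ∈ 𝓝 (U (sig n ρ z)) :=
    (isOpen_ne_fun (EuclideanSpace.proj (0 : Fin (n + 1)) : Cn (n + 1) →L[ℂ] ℂ).continuous
      continuous_const).mem_nhds hz.2
  have hph : HasFDerivAt (ph (n := n)) (fderiv ℝ (ph (n := n)) (U (sig n ρ z))) (U (sig n ρ z)) :=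
    ((contDiffOn_ph.contDiffAt hw0).differentiableAt (by simp)).hasFDerivAt
  have hθ : HasFDerivAt (fun x => ph (U (sig n ρ x)))
      ((fderiv ℝ (ph (n := n)) (U (sig n ρ z))).comp (UL.comp σ')) z :=
    HasFDerivAt.comp (g := ph (n := n)) z hph hG
  set θ' := (fderiv ℝ (ph (n := n)) (U (sig n ρ z))).comp (UL.comp σ') with hθ'
  set w := U (sig n ρ z) with hw
  set θ := ph w with hθdef
  have hFt : HasFDerivAt (fun x => ph (U (sig n ρ x)) • U (sig n ρ x))
      (θ • (UL.comp σ') + θ'.smulRight w) z := hθ.smul hG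
  have hF : HasFDerivAt (F n ρ U) ((tlL n).comp (θ • (UL.comp σ') + θ'.smulRight w)) z := by
    have h1 := (tlL n).hasFDerivAt.comp z hFt
    have h2 : (tlL n) ∘ (fun x => ph (U (sig n ρ x)) • U (sig n ρ x)) = F n ρ U := by
      funext x
      simp only [Function.comp, tlL_apply, tl_smul]
      rfl
    rw [h2] at h1
    exact h1
  rw [hF.fderiv]
  have hθn : ‖θ‖ = 1 := norm_ph hz.2
  have hθθ : θ * starRingEnd ℂ θ = 1 := by
    rw [Complex.mul_conj, Complex.normSq_eq_norm_sq, hθn]; simp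
  -- the derivative of the phase
  have hphase : ∀ y : Cn n, θ' y = θ * (Complex.I * ((starRingEnd ℂ θ * θ' y).im : ℝ)) := by
    intro y
    have h1 : inner ℝ θ (θ' y) = 0 :=
      re_inner_fderiv_eq_zero hθ (Filter.mem_of_superset hnhds fun x hx => norm_ph hx.2) y
    rw [Complex.inner, mul_comm] at h1
    have h2 : ∀ q : ℂ, q.re = 0 → q = Complex.I * ((q.im : ℝ) : ℂ) := by
      intro q hq
      apply Complex.ext
      · simp [hq]
      · simp
    rw [← h2 _ h1, ← mul_assoc, hθθ, one_mul]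
  have hperp : ∀ y : Cn n, (inner ℂ w (U (σ' y))).re = 0 := by
    intro y
    have h1 : inner ℝ w (UL.comp σ' y) = 0 :=
      re_inner_fderiv_eq_zero (c := ρ) hG (Filter.mem_of_superset hball fun x hx => by
        show ‖U (sig n ρ x)‖ = ρ
        rw [U.norm_map]
        exact norm_sig hρ (le_of_lt hx)) y
    exact (real_inner_eq w (U (σ' y))).symm.trans h1
  have hform : ∀ y : Cn n, (θ • (UL.comp σ') + θ'.smulRight w) y
      = θ • (U (σ' y) + (Complex.I * ((starRingEnd ℂ θ * θ' y).im : ℝ)) • w) := by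
    intro y
    have h1 : (θ • (UL.comp σ') + θ'.smulRight w) y = θ • U (σ' y) + θ' y • w := rfl
    rw [h1, smul_add, smul_smul, ← hphase y]
  have hA := im_inner_of_real0 hFt (fun x => by
    show (ph (U (sig n ρ x)) * U (sig n ρ x) 0).im = 0
    rw [ph_mul]
    exact Complex.ofReal_im _) u v
  have hB := im_inner_of_real0 hσ (fun x => by
    show (sig n ρ x 0).im = 0
    simp [sig]) u v
  have hid : ∀ y : Cn n, tl (σ' y) = y := by
    intro y
    have h1 := (tlL n).hasFDerivAt.comp z hσ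
    have h2 : (tlL n) ∘ (sig n ρ) = id := by
      funext x
      ext j
      simp [tlL_apply, tl, sig]
    rw [h2] at h1
    have h3 := congrArg (fun L : Cn n →L[ℝ] Cn n => L y) (h1.unique (hasFDerivAt_id z))
    exact h3
  show (inner ℂ (tl ((θ • (UL.comp σ') + θ'.smulRight w) u))
    (tl ((θ • (UL.comp σ') + θ'.smulRight w) v))).im = _
  rw [← hA, hform u, hform v, twist w _ _ θ _ _ hθn (hperp u) (hperp v), U.inner_map_map, hB,
    hid u, hid v]

end Vale.Agent.P209
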