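import Vale.Agent.Lib.P209.Symp
import Vale.Agent.Lib.P209.Dom

/-!
# P209 module T: the two-ball packing   (FROZEN statements; uses L, D, S, Y as black boxes)

* `isSympEmb_F`: neighbourhood `{z | ‖z‖² < ρ² c²}`, `c = |(U e0) 0|` (open; contained in `dom` by
  `mem_dom`; contains `cball n a` because `π ∑ ‖z j‖² = π ‖z‖²`, `EuclideanSpace.norm_sq_eq`);
  `contDiffOn_F.mono`, `injOn_F.mono`, `symp_F`.
* `two_ball`: `ρ = √(R/π)`, `c₁ = √(a/(a+b))`, `c₂ = √(b/(a+b))`, `n = m+1`,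
  `u₁ = (c₁, c₂, 0, …)`, `u₂ = (c₂, -c₁, 0, …)` unit and orthogonal; `U₁, U₂` from `exists_isometry`;
  `a < π ρ² c₁² = R a/(a+b)`; images in `oball` by `norm_F_lt`; disjoint by `F_ne_F`
  (`π(‖z‖²+‖z'‖²) ≤ a+b < R = π ρ²`).
-/

namespace Vale.Agent.P209

variable {n : ℕ} {ρ : ℝ}

private theorem cball_norm {a : ℝ} {z : Cn n} (hz : z ∈ cball n a) : Real.pi * ‖z‖ ^ 2 ≤ a := by
  have h1 : Real.pi * ∑ j, ‖z j‖ ^ 2 ≤ a := hz
  rwa [← EuclideanSpace.norm_sq_eq] at h1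

private theorem cball_sub (U : Cn (n + 1) ≃ₗᵢ[ℂ] Cn (n + 1)) (a : ℝ)
    (ha : a < Real.pi * (ρ ^ 2 * ‖U (e0 n) 0‖ ^ 2)) {z : Cn n} (hz : z ∈ cball n a) :
    ‖z‖ ^ 2 < ρ ^ 2 * ‖U (e0 n) 0‖ ^ 2 := by
  have h1 := cball_norm hz
  have h2 : Real.pi * ‖z‖ ^ 2 < Real.pi * (ρ ^ 2 * ‖U (e0 n) 0‖ ^ 2) := lt_of_le_of_lt h1 ha
  exact lt_of_mul_lt_mul_left h2 Real.pi_pos.le

theorem isSympEmb_F (hρ : 0 < ρ) (U : Cn (n + 1) ≃ₗᵢ[ℂ] Cn (n + 1)) (a : ℝ)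
    (ha : a < Real.pi * (ρ ^ 2 * ‖U (e0 n) 0‖ ^ 2)) : IsSympEmb n a (F n ρ U) := by
  have hsub : {z : Cn n | ‖z‖ ^ 2 < ρ ^ 2 * ‖U (e0 n) 0‖ ^ 2} ⊆ dom n ρ U :=
    fun z hz => mem_dom hρ U hz
  refine ⟨{z : Cn n | ‖z‖ ^ 2 < ρ ^ 2 * ‖U (e0 n) 0‖ ^ 2}, ?_, ?_, (contDiffOn_F U).mono hsub,
    (injOn_F hρ U).mono hsub, fun z hz u v => symp_F hρ U (hsub hz) u v⟩
  · exact isOpen_lt (by fun_prop) continuous_const
  · intro z hz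
    exact cball_sub U a ha hz

private theorem image_sub (hρ : 0 < ρ) (U : Cn (n + 1) ≃ₗᵢ[ℂ] Cn (n + 1)) (a R : ℝ)
    (hR : Real.pi * ρ ^ 2 = R)
    (ha : a < Real.pi * (ρ ^ 2 * ‖U (e0 n) 0‖ ^ 2)) : F n ρ U '' cball n a ⊆ oball n R := by
  rintro _ ⟨z, hz, rfl⟩
  have hd : z ∈ dom n ρ U := mem_dom hρ U (cball_sub U a ha hz)
  have h1 := norm_F_lt hρ U hd
  show Real.pi * ∑ j, ‖(F n ρ U z) j‖ ^ 2 < R
  rw [← EuclideanSpace.norm_sq_eq, ← hR]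
  have h2 : ‖F n ρ U z‖ ^ 2 < ρ ^ 2 := by
    have := norm_nonneg (F n ρ U z)
    nlinarith
  exact mul_lt_mul_of_pos_left h2 Real.pi_pos

theorem two_ball (n : ℕ) (hn : 1 ≤ n) (a b R : ℝ) (ha : 0 < a) (hb : 0 < b) (h : a + b < R) :
    ∃ φ ψ : Cn n → Cn n, IsSympEmb n a φ ∧ IsSympEmb n b ψ ∧
      φ '' cball n a ⊆ oball n R ∧ ψ '' cball n b ⊆ oball n R ∧
      Disjoint (φ '' cball n a) (ψ '' cball n b) := by
  obtain ⟨m, rfl⟩ : ∃ m, n = m + 1 := ⟨n - 1, by omega⟩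
  have hab : 0 < a + b := by linarith
  have hRpos : 0 < R := by linarith
  have hpi := Real.pi_pos
  set ρ : ℝ := Real.sqrt (R / Real.pi) with hρdef
  have hρ2 : ρ ^ 2 = R / Real.pi := Real.sq_sqrt (by positivity)
  have hρ : 0 < ρ := Real.sqrt_pos.mpr (by positivity)
  have hR : Real.pi * ρ ^ 2 = R := by rw [hρ2]; field_simp
  set c₁ : ℝ := Real.sqrt (a / (a + b)) with hc1
  set c₂ : ℝ := Real.sqrt (b / (a + b)) with hc2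
  have hc1sq : c₁ ^ 2 = a / (a + b) := Real.sq_sqrt (by positivity)
  have hc2sq : c₂ ^ 2 = b / (a + b) := Real.sq_sqrt (by positivity)
  have hsum : c₁ ^ 2 + c₂ ^ 2 = 1 := by rw [hc1sq, hc2sq]; field_simp
  have h01 : (0 : Fin (m + 1 + 1)) ≠ 1 := by
    intro h; simp [Fin.ext_iff] at h
  let E0 : Cn (m + 1 + 1) := EuclideanSpace.single 0 1
  let E1 : Cn (m + 1 + 1) := EuclideanSpace.single 1 1
  let u₁ : Cn (m + 1 + 1) := (c₁ : ℂ) • E0 + (c₂ : ℂ) • E1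
  let u₂ : Cn (m + 1 + 1) := (c₂ : ℂ) • E0 - (c₁ : ℂ) • E1
  have i00 : inner ℂ E0 E0 = (1 : ℂ) := by simp [E0, EuclideanSpace.inner_single_left]
  have i11 : inner ℂ E1 E1 = (1 : ℂ) := by simp [E1, EuclideanSpace.inner_single_left]
  have i01 : inner ℂ E0 E1 = (0 : ℂ) := by
    simp [E0, E1, EuclideanSpace.inner_single_left, h01]
  have i10 : inner ℂ E1 E0 = (0 : ℂ) := by
    simp [E0, E1, EuclideanSpace.inner_single_left, h01.symm]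
  have hu1 : ‖u₁‖ = 1 := by
    have h1 : inner ℂ u₁ u₁ = ((c₁ ^ 2 + c₂ ^ 2 : ℝ) : ℂ) := by
      simp only [u₁, inner_add_left, inner_add_right, inner_smul_left, inner_smul_right, i00, i11,
        i01, i10, Complex.conj_ofReal]
      push_cast; ring
    have h2 : ‖u₁‖ ^ 2 = 1 := by
      have h3 := inner_self_eq_norm_sq_to_K (𝕜 := ℂ) u₁
      rw [h1, hsum] at h3
      have h4 : ((‖u₁‖ ^ 2 : ℝ) : ℂ) = ((1 : ℝ) : ℂ) := by push_cast; exact h3.symm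
      exact_mod_cast h4
    have := norm_nonneg u₁
    nlinarith
  have hu2 : ‖u₂‖ = 1 := by
    have h1 : inner ℂ u₂ u₂ = ((c₁ ^ 2 + c₂ ^ 2 : ℝ) : ℂ) := by
      simp only [u₂, inner_sub_left, inner_sub_right, inner_smul_left, inner_smul_right, i00, i11,
        i01, i10, Complex.conj_ofReal]
      push_cast; ring
    have h2 : ‖u₂‖ ^ 2 = 1 := by
      have h3 := inner_self_eq_norm_sq_to_K (𝕜 := ℂ) u₂
      rw [h1, hsum] at h3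
      have h4 : ((‖u₂‖ ^ 2 : ℝ) : ℂ) = ((1 : ℝ) : ℂ) := by push_cast; exact h3.symm
      exact_mod_cast h4
    have := norm_nonneg u₂
    nlinarith
  have horth : inner ℂ u₁ u₂ = (0 : ℂ) := by
    simp only [u₁, u₂, inner_add_left, inner_sub_right, inner_smul_left, inner_smul_right, i00, i11,
      i01, i10, Complex.conj_ofReal]
    ring
  have hu10 : ‖u₁ 0‖ ^ 2 = a / (a + b) := by
    have : u₁ 0 = (c₁ : ℂ) := by
      simp [u₁, E0, E1, h01]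
    rw [this, Complex.norm_real, Real.norm_eq_abs, sq_abs, hc1sq]
  have hu20 : ‖u₂ 0‖ ^ 2 = b / (a + b) := by
    have : u₂ 0 = (c₂ : ℂ) := by
      simp [u₂, E0, E1, h01]
    rw [this, Complex.norm_real, Real.norm_eq_abs, sq_abs, hc2sq]
  obtain ⟨U₁, hU₁⟩ := exists_isometry u₁ hu1
  obtain ⟨U₂, hU₂⟩ := exists_isometry u₂ hu2
  have ha' : a < Real.pi * (ρ ^ 2 * ‖U₁ (e0 (m + 1)) 0‖ ^ 2) := by
    rw [hU₁, hu10, ← mul_assoc, hR]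
    rw [mul_div_assoc', lt_div_iff₀ hab]
    nlinarith
  have hb' : b < Real.pi * (ρ ^ 2 * ‖U₂ (e0 (m + 1)) 0‖ ^ 2) := by
    rw [hU₂, hu20, ← mul_assoc, hR]
    rw [mul_div_assoc', lt_div_iff₀ hab]
    nlinarith
  refine ⟨F (m + 1) ρ U₁, F (m + 1) ρ U₂, isSympEmb_F hρ U₁ a ha', isSympEmb_F hρ U₂ b hb',
    image_sub hρ U₁ a R hR ha', image_sub hρ U₂ b R hR hb', ?_⟩
  rw [Set.disjoint_left]
  rintro _ ⟨z, hz, rfl⟩ ⟨z', hz', heq⟩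
  have hd : z ∈ dom (m + 1) ρ U₁ := mem_dom hρ U₁ (cball_sub U₁ a ha' hz)
  have hd' : z' ∈ dom (m + 1) ρ U₂ := mem_dom hρ U₂ (cball_sub U₂ b hb' hz')
  have h1 := cball_norm hz
  have h2 := cball_norm hz'
  have hlt : ‖z‖ ^ 2 + ‖z'‖ ^ 2 < ρ ^ 2 := by
    have h3 : Real.pi * (‖z‖ ^ 2 + ‖z'‖ ^ 2) < Real.pi * ρ ^ 2 := by
      rw [hR]; linarith
    exact lt_of_mul_lt_mul_left h3 hpi.le
  exact F_ne_F hρ U₁ U₂ (by rw [hU₁, hU₂]; exact horth) hd hd' hlt heq.symm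

end Vale.Agent.P209
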